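import Vale.Agent.P096.CS.StrongDefs
import Mathlib.Analysis.CStarAlgebra.Unitary.Connected
import Mathlib.Analysis.CStarAlgebra.ContinuousLinearMap
import Mathlib.Tactic

/-!
# P096: from the strong Kadison-Kastler statement to the linear estimate

The statement `for every ε there is δ` upgrades itself to a linear estimate: if `u M u* = N` with
`‖u - 1‖` much larger than `d(M, N)`, a large power `u ^ k` conjugates `M` onto an algebra still
close to `M`; a small unitary `w` does the same; `w* u ^ k` normalizes `M`, so does its `k`-th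
root `g`, and `u g*` conjugates `M` onto `N` with `‖u g* - 1‖ ≤ ‖u - 1‖ / 2`.
-/

namespace Vale.Agent.P096.H308

open Vale.Agent.P096.Strong Filter Topology
open scoped selfAdjoint

universe u

variable {H : Type u} [NormedAddCommGroup H] [InnerProductSpace ℂ H] [CompleteSpace H]

/-! ### closeness of two von Neumann algebras -/

/-- each element of one unit ball is within `δ` of the other unit ball -/
def Near (M N : VonNeumannAlgebra H) (δ : ℝ) : Prop :=
  (∀ x ∈ ball M, ∃ y ∈ ball N, ‖x - y‖ ≤ δ) ∧ (∀ y ∈ ball N, ∃ x ∈ ball M, ‖x - y‖ ≤ δ)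

theorem zero_mem_ball (M : VonNeumannAlgebra H) : (0 : H →L[ℂ] H) ∈ ball M :=
  ⟨zero_mem M, by simp⟩

instance (M : VonNeumannAlgebra H) : Nonempty (ball M) := ⟨⟨0, zero_mem_ball M⟩⟩

theorem bdd_in (N : VonNeumannAlgebra H) (x : H →L[ℂ] H) :
    BddBelow (Set.range fun y : ball N => ‖x - (y : H →L[ℂ] H)‖) :=
  ⟨0, by rintro _ ⟨y, rfl⟩; exact norm_nonneg _⟩

theorem bdd_in' (M : VonNeumannAlgebra H) (y : H →L[ℂ] H) :
    BddBelow (Set.range fun x : ball M => ‖(x : H →L[ℂ] H) - y‖) :=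
  ⟨0, by rintro _ ⟨y, rfl⟩; exact norm_nonneg _⟩

theorem near_of_lt {M N : VonNeumannAlgebra H} {δ : ℝ} (h : kkDist M N < δ) : Near M N δ := by
  have h1 : (⨆ x : ball M, ⨅ y : ball N, ‖(x : H →L[ℂ] H) - (y : H →L[ℂ] H)‖) < δ :=
    lt_of_le_of_lt (le_max_left _ _) h
  have h2 : (⨆ y : ball N, ⨅ x : ball M, ‖(x : H →L[ℂ] H) - (y : H →L[ℂ] H)‖) < δ :=
    lt_of_le_of_lt (le_max_right _ _) h
  constructor
  · intro x hx
    have hb : BddAbove (Set.range fun x : ball M =>
        ⨅ y : ball N, ‖(x : H →L[ℂ] H) - (y : H →L[ℂ] H)‖) := by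
      refine ⟨1, ?_⟩
      rintro _ ⟨x, rfl⟩
      refine (ciInf_le (bdd_in N _) ⟨0, zero_mem_ball N⟩).trans ?_
      simpa using x.2.2
    have h3 := lt_of_le_of_lt (le_ciSup hb ⟨x, hx⟩) h1
    obtain ⟨y, hy⟩ := exists_lt_of_ciInf_lt h3
    exact ⟨y, y.2, hy.le⟩
  · intro y hy
    have hb : BddAbove (Set.range fun y : ball N =>
        ⨅ x : ball M, ‖(x : H →L[ℂ] H) - (y : H →L[ℂ] H)‖) := by
      refine ⟨1, ?_⟩
      rintro _ ⟨y, rfl⟩
      refine (ciInf_le (bdd_in' M _) ⟨0, zero_mem_ball M⟩).trans ?_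
      simpa using y.2.2
    have h3 := lt_of_le_of_lt (le_ciSup hb ⟨y, hy⟩) h2
    obtain ⟨x, hx⟩ := exists_lt_of_ciInf_lt h3
    exact ⟨x, x.2, hx.le⟩

theorem kkDist_le_of_near {M N : VonNeumannAlgebra H} {δ : ℝ} (h : Near M N δ) :
    kkDist M N ≤ δ := by
  refine max_le (ciSup_le fun x => ?_) (ciSup_le fun y => ?_)
  · obtain ⟨y, hy, hxy⟩ := h.1 x x.2
    exact (ciInf_le (bdd_in N _) ⟨y, hy⟩).trans hxy
  · obtain ⟨x, hx, hxy⟩ := h.2 y y.2
    exact (ciInf_le (bdd_in' M _) ⟨x, hx⟩).trans hxy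

theorem kkDist_nonneg (M N : VonNeumannAlgebra H) : 0 ≤ kkDist M N :=
  le_max_of_le_left (Real.iSup_nonneg fun _ => Real.iInf_nonneg fun _ => norm_nonneg _)

theorem Near.trans {M N P : VonNeumannAlgebra H} {a b : ℝ} (h1 : Near M N a) (h2 : Near N P b) :
    Near M P (a + b) := by
  constructor
  · intro x hx
    obtain ⟨y, hy, hxy⟩ := h1.1 x hx
    obtain ⟨z, hz, hyz⟩ := h2.1 y hy
    refine ⟨z, hz, ?_⟩
    calc ‖x - z‖ = ‖(x - y) + (y - z)‖ := by rw [sub_add_sub_cancel]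
      _ ≤ _ := (norm_add_le _ _).trans (add_le_add hxy hyz)
  · intro z hz
    obtain ⟨y, hy, hyz⟩ := h2.2 z hz
    obtain ⟨x, hx, hxy⟩ := h1.2 y hy
    refine ⟨x, hx, ?_⟩
    calc ‖x - z‖ = ‖(x - y) + (y - z)‖ := by rw [sub_add_sub_cancel]
      _ ≤ _ := (norm_add_le _ _).trans (add_le_add hxy hyz)

theorem isClosed_vn (M : VonNeumannAlgebra H) : IsClosed (M : Set (H →L[ℂ] H)) := by
  rw [← VonNeumannAlgebra.centralizer_centralizer M]
  exact Set.isClosed_centralizer _

theorem smul_mem_vn (M : VonNeumannAlgebra H) (c : ℂ) {x : H →L[ℂ] H} (hx : x ∈ M) :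
    c • x ∈ M := M.toStarSubalgebra.smul_mem hx c

theorem le_of_near_zero {M N : VonNeumannAlgebra H} (h : ∀ ε : ℝ, 0 < ε → Near M N ε) :
    (M : Set (H →L[ℂ] H)) ⊆ N := by
  intro x hx
  by_cases hx0 : x = 0
  · rw [hx0]; exact zero_mem N
  have hn : 0 < ‖x‖ := norm_pos_iff.2 hx0
  have hb : ((‖x‖⁻¹ : ℝ) : ℂ) • x ∈ ball M := by
    refine ⟨smul_mem_vn M _ hx, ?_⟩
    rw [norm_smul, Complex.norm_real, norm_inv, norm_norm, inv_mul_cancel₀ hn.ne']
  have hmem : ((‖x‖⁻¹ : ℝ) : ℂ) • x ∈ (N : Set (H →L[ℂ] H)) := by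
    rw [← (isClosed_vn N).closure_eq, Metric.mem_closure_iff]
    intro ε hε
    obtain ⟨y, hy, hxy⟩ := (h (ε / 2) (half_pos hε)).1 _ hb
    refine ⟨y, hy.1, ?_⟩
    rw [dist_eq_norm]
    linarith
  have h2 := smul_mem_vn N ((‖x‖ : ℝ) : ℂ) hmem
  rw [smul_smul, ← Complex.ofReal_mul, mul_inv_cancel₀ hn.ne', Complex.ofReal_one, one_smul] at h2
  exact h2

theorem Near.symm {M N : VonNeumannAlgebra H} {a : ℝ} (h : Near M N a) : Near N M a :=
  ⟨fun x hx => by
    obtain ⟨y, hy, hxy⟩ := h.2 x hx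
    exact ⟨y, hy, by rwa [norm_sub_rev]⟩,
   fun x hx => by
    obtain ⟨y, hy, hxy⟩ := h.1 x hx
    exact ⟨y, hy, by rwa [norm_sub_rev]⟩⟩

/-! ### conjugation -/

section conj

variable {v : H →L[ℂ] H}

theorem norm_one_vn_le : ‖(1 : H →L[ℂ] H)‖ ≤ 1 := ContinuousLinearMap.norm_id_le

theorem norm_le_one (hv : v ∈ unitary (H →L[ℂ] H)) : ‖v‖ ≤ 1 := by
  have h1 : ‖v‖ * ‖v‖ ≤ 1 := by
    rw [← CStarRing.norm_star_mul_self, Unitary.star_mul_self_of_mem hv]
    exact norm_one_vn_le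
  nlinarith [norm_nonneg v]

theorem norm_conj_le (hv : v ∈ unitary (H →L[ℂ] H)) (x : H →L[ℂ] H) :
    ‖v * x * star v‖ ≤ ‖x‖ := by
  have h1 := norm_le_one hv
  have h2 : ‖star v‖ ≤ 1 := norm_le_one (Unitary.star_mem hv)
  calc ‖v * x * star v‖ ≤ ‖v‖ * ‖x‖ * ‖star v‖ :=
        (norm_mul_le _ _).trans (mul_le_mul_of_nonneg_right (norm_mul_le _ _) (norm_nonneg _))
    _ ≤ 1 * ‖x‖ * 1 := by gcongr
    _ = ‖x‖ := by ring

theorem star_mul_cancel_vn (hv : v ∈ unitary (H →L[ℂ] H)) (x : H →L[ℂ] H) :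
    star v * (v * x) = x := by
  rw [← mul_assoc, Unitary.star_mul_self_of_mem hv, one_mul]

theorem mul_star_cancel_vn (hv : v ∈ unitary (H →L[ℂ] H)) (x : H →L[ℂ] H) :
    v * (star v * x) = x := by
  rw [← mul_assoc, Unitary.mul_star_self_of_mem hv, one_mul]

/-- the conjugate algebra `v M v*`, given by `x ∈ v M v* ↔ v* x v ∈ M` -/
noncomputable def conjVN (hv : v ∈ unitary (H →L[ℂ] H)) (M : VonNeumannAlgebra H) :
    VonNeumannAlgebra H where
  carrier := {x | star v * x * v ∈ M}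
  mul_mem' := by
    intro a b ha hb
    have : star v * (a * b) * v = (star v * a * v) * (star v * b * v) := by
      simp only [mul_assoc]
      rw [mul_star_cancel_vn hv]
    change star v * (a * b) * v ∈ M
    rw [this]
    exact mul_mem ha hb
  one_mem' := by
    change star v * 1 * v ∈ M
    rw [mul_one, Unitary.star_mul_self_of_mem hv]
    exact one_mem M
  add_mem' := by
    intro a b ha hb
    change star v * (a + b) * v ∈ M
    rw [mul_add, add_mul]
    exact add_mem ha hb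
  zero_mem' := by
    change star v * 0 * v ∈ M
    rw [mul_zero, zero_mul]
    exact zero_mem M
  algebraMap_mem' := by
    intro c
    change star v * (algebraMap ℂ (H →L[ℂ] H) c) * v ∈ M
    rw [Algebra.algebraMap_eq_smul_one, mul_smul_comm, smul_mul_assoc, mul_one,
      Unitary.star_mul_self_of_mem hv]
    exact smul_mem_vn M c (one_mem M)
  star_mem' := by
    intro a ha
    change star v * star a * v ∈ M
    have : star v * star a * v = star (star v * a * v) := by
      simp only [star_mul, star_star, mul_assoc]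
    rw [this]
    exact star_mem (s := M) ha
  centralizer_centralizer' := by
    refine le_antisymm ?_ Set.subset_centralizer_centralizer
    intro x hx
    change star v * x * v ∈ (M : Set (H →L[ℂ] H))
    rw [← VonNeumannAlgebra.centralizer_centralizer M]
    intro t ht
    have h1 : v * t * star v ∈ Set.centralizer {x | star v * x * v ∈ M} := by
      intro s hs
      have h2 := ht _ hs
      calc s * (v * t * star v) = v * ((star v * s * v) * t) * star v := by
            simp only [mul_assoc]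
            rw [mul_star_cancel_vn hv]
        _ = v * (t * (star v * s * v)) * star v := by rw [h2]
        _ = v * t * star v * s := by
            simp only [mul_assoc]
            rw [Unitary.mul_star_self_of_mem hv, mul_one]
    have h3 := hx _ h1
    calc t * (star v * x * v) = star v * ((v * t * star v) * x) * v := by
          simp only [mul_assoc]
          rw [star_mul_cancel_vn hv]
      _ = star v * (x * (v * t * star v)) * v := by rw [h3]
      _ = star v * x * v * t := by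
          simp only [mul_assoc]
          rw [Unitary.star_mul_self_of_mem hv, mul_one]

theorem mem_conjVN (hv : v ∈ unitary (H →L[ℂ] H)) (M : VonNeumannAlgebra H) (x : H →L[ℂ] H) :
    x ∈ conjVN hv M ↔ star v * x * v ∈ M := Iff.rfl

theorem conj_mem_conjVN (hv : v ∈ unitary (H →L[ℂ] H)) {M : VonNeumannAlgebra H}
    {x : H →L[ℂ] H} (hx : x ∈ M) : v * x * star v ∈ conjVN hv M := by
  rw [mem_conjVN]
  have : star v * (v * x * star v) * v = x := by
    simp only [mul_assoc]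
    rw [star_mul_cancel_vn hv, Unitary.star_mul_self_of_mem hv, mul_one]
  rwa [this]

theorem image_conj (hv : v ∈ unitary (H →L[ℂ] H)) (M : VonNeumannAlgebra H) :
    (fun x => v * x * star v) '' (M : Set (H →L[ℂ] H)) = (conjVN hv M : Set (H →L[ℂ] H)) := by
  ext x
  constructor
  · rintro ⟨y, hy, rfl⟩
    exact conj_mem_conjVN hv hy
  · intro hx
    refine ⟨star v * x * v, hx, ?_⟩
    simp only [mul_assoc]
    rw [mul_star_cancel_vn hv, Unitary.mul_star_self_of_mem hv, mul_one]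

theorem near_conj {M N : VonNeumannAlgebra H} {a : ℝ} (hv : v ∈ unitary (H →L[ℂ] H))
    (h : Near M N a) : Near (conjVN hv M) (conjVN hv N) a := by
  have hsv := Unitary.star_mem hv
  have key : ∀ {M N : VonNeumannAlgebra H}, Near M N a →
      ∀ x ∈ ball (conjVN hv M), ∃ y ∈ ball (conjVN hv N), ‖x - y‖ ≤ a := by
    intro M N h x hx
    have h1 : star v * x * v ∈ ball M :=
      ⟨hx.1, by simpa using (norm_conj_le hsv x).trans hx.2⟩
    obtain ⟨y, hy, hxy⟩ := h.1 _ h1
    refine ⟨v * y * star v, ⟨conj_mem_conjVN hv hy.1, (norm_conj_le hv y).trans hy.2⟩, ?_⟩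
    have h2 : x - v * y * star v = v * (star v * x * v - y) * star v := by
      rw [mul_sub, sub_mul]
      congr 1
      simp only [mul_assoc]
      rw [mul_star_cancel_vn hv, Unitary.mul_star_self_of_mem hv, mul_one]
    rw [h2]
    exact (norm_conj_le hv _).trans hxy
  exact ⟨key h, fun y hy => by
    obtain ⟨x, hx, hxy⟩ := key h.symm y hy
    exact ⟨x, hx, by rwa [norm_sub_rev]⟩⟩

theorem norm_conj_sub_le (hv : v ∈ unitary (H →L[ℂ] H)) (x : H →L[ℂ] H) :
    ‖v * x * star v - x‖ ≤ 2 * ‖v - 1‖ * ‖x‖ := by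
  have h1 : v * x * star v - x = (v - 1) * x * star v + x * star (v - 1) := by
    rw [star_sub, star_one]
    noncomm_ring
  have h2 : ‖star v‖ ≤ 1 := norm_le_one (Unitary.star_mem hv)
  rw [h1]
  calc ‖(v - 1) * x * star v + x * star (v - 1)‖
      ≤ ‖(v - 1) * x * star v‖ + ‖x * star (v - 1)‖ := norm_add_le _ _
    _ ≤ ‖v - 1‖ * ‖x‖ * ‖star v‖ + ‖x‖ * ‖star (v - 1)‖ := by
        gcongr
        · exact (norm_mul_le _ _).trans (mul_le_mul_of_nonneg_right (norm_mul_le _ _)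
            (norm_nonneg _))
        · exact norm_mul_le _ _
    _ ≤ ‖v - 1‖ * ‖x‖ * 1 + ‖x‖ * ‖v - 1‖ := by
        rw [norm_star (v - 1)]
        exact add_le_add (mul_le_mul_of_nonneg_left h2 (by positivity)) le_rfl
    _ = _ := by ring

end conj

/-! ### the square root lemma in a normed algebra -/

theorem sqrt_mem {A : Type*} [NormedRing A] [NormedSpace ℝ A] {S : Set A} (hS : IsClosed S)
    (h0 : (0 : A) ∈ S) {X : A} (hX : ∀ Z ∈ S, (2⁻¹ : ℝ) • (X - Z * Z) ∈ S) {Y : A}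
    (hY : (2⁻¹ : ℝ) • (X - Y * Y) = Y) (hY3 : ‖Y‖ ≤ 1 / 3) : Y ∈ S := by
  let Z : ℕ → A := fun n => Nat.rec 0 (fun _ z => (2⁻¹ : ℝ) • (X - z * z)) n
  have hZ0 : Z 0 = 0 := rfl
  have hZs : ∀ n, Z (n + 1) = (2⁻¹ : ℝ) • (X - Z n * Z n) := fun n => rfl
  have hZS : ∀ n, Z n ∈ S := by
    intro n
    induction n with
    | zero => exact h0
    | succ n ih => rw [hZs]; exact hX _ ih
  have hb : ∀ n, ‖Z n - Y‖ ≤ (1 / 2) ^ n * ‖Y‖ := by
    intro n
    induction n with
    | zero => simp [hZ0]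
    | succ n ih =>
      have h1 : ‖Z n - Y‖ ≤ ‖Y‖ := ih.trans (by
        have : ((1 : ℝ) / 2) ^ n ≤ 1 := pow_le_one₀ (by norm_num) (by norm_num)
        nlinarith [norm_nonneg Y])
      have h2 : ‖Z n‖ ≤ 2 / 3 := by
        calc ‖Z n‖ = ‖(Z n - Y) + Y‖ := by rw [sub_add_cancel]
          _ ≤ ‖Z n - Y‖ + ‖Y‖ := norm_add_le _ _
          _ ≤ 2 / 3 := by linarith
      have h3 : Z (n + 1) - Y = (2⁻¹ : ℝ) • (Y * (Y - Z n) + (Y - Z n) * Z n) := by
        calc Z (n + 1) - Y = (2⁻¹ : ℝ) • (X - Z n * Z n) - (2⁻¹ : ℝ) • (X - Y * Y) := by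
              rw [hY, hZs]
          _ = (2⁻¹ : ℝ) • ((X - Z n * Z n) - (X - Y * Y)) := (smul_sub _ _ _).symm
          _ = _ := by
              congr 1
              noncomm_ring
      have h4 : ‖Y * (Y - Z n) + (Y - Z n) * Z n‖ ≤ 1 * ‖Z n - Y‖ := by
        calc ‖Y * (Y - Z n) + (Y - Z n) * Z n‖ ≤ ‖Y * (Y - Z n)‖ + ‖(Y - Z n) * Z n‖ :=
              norm_add_le _ _
          _ ≤ ‖Y‖ * ‖Y - Z n‖ + ‖Y - Z n‖ * ‖Z n‖ :=
              add_le_add (norm_mul_le _ _) (norm_mul_le _ _)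
          _ ≤ (1 / 3) * ‖Y - Z n‖ + ‖Y - Z n‖ * (2 / 3) := by gcongr
          _ = 1 * ‖Z n - Y‖ := by rw [norm_sub_rev]; ring
      rw [h3, norm_smul, Real.norm_eq_abs, abs_of_pos (by norm_num : (0 : ℝ) < 2⁻¹)]
      calc (2⁻¹ : ℝ) * ‖Y * (Y - Z n) + (Y - Z n) * Z n‖ ≤ 2⁻¹ * (1 * ((1 / 2) ^ n * ‖Y‖)) := by
            gcongr
            exact h4.trans (by gcongr)
        _ = (1 / 2) ^ (n + 1) * ‖Y‖ := by ring
  have hlim : Tendsto Z atTop (𝓝 Y) := by
    rw [tendsto_iff_norm_sub_tendsto_zero]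
    refine squeeze_zero (fun n => norm_nonneg _) hb ?_
    have := (tendsto_pow_atTop_nhds_zero_of_lt_one (r := (1 / 2 : ℝ)) (by norm_num)
      (by norm_num)).mul_const ‖Y‖
    simpa using this
  exact hS.mem_of_tendsto hlim (Eventually.of_forall hZS)

theorem half_eq {A : Type*} [Ring A] [Module ℝ A] (V : A) :
    (2⁻¹ : ℝ) • (V * V - 1 - (V - 1) * (V - 1)) = V - 1 := by
  have h1 : V * V - 1 - (V - 1) * (V - 1) = (V - 1) + (V - 1) := by noncomm_ring
  rw [h1, ← two_smul ℝ, smul_smul]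
  norm_num

open selfAdjoint in
/-- the one-parameter group through a unitary close to `1` -/
theorem exists_group {A : Type*} [CStarAlgebra A] (G : unitary A) (hlt : ‖(G - 1 : A)‖ < 2) :
    ∃ E : ℝ → unitary A, E 0 = 1 ∧ E 1 = G ∧ (∀ s t, E (s + t) = E s * E t) ∧
      ∀ t ∈ Set.Icc (0 : ℝ) 1, ‖(E t - 1 : A)‖ ≤ ‖(G - 1 : A)‖ := by
  set a := Unitary.argSelfAdjoint G with ha
  refine ⟨fun t => expUnitary (t • a), ?_, ?_, ?_, ?_⟩
  · simp only [zero_smul]
    exact selfAdjoint.expUnitary_zero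
  · simp only [one_smul, ha]
    exact expUnitary_argSelfAdjoint hlt
  · intro s t
    simp only [add_smul]
    refine Commute.expUnitary_add ?_
    simp only [selfAdjoint.val_smul]
    exact ((Commute.refl (a : A)).smul_left s).smul_right t
  · intro t ht
    exact Unitary.norm_expUnitary_smul_argSelfAdjoint_sub_one_le G ht hlt

/-! ### square roots of normalizing unitaries normalize -/

section root

variable {v s : H →L[ℂ] H}

/-- `x ↦ v x v*` as a bounded operator on `B(H)` -/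
noncomputable def adL (v : H →L[ℂ] H) : (H →L[ℂ] H) →L[ℂ] (H →L[ℂ] H) :=
  LinearMap.mkContinuous
    { toFun := fun x => v * x * star v
      map_add' := fun x y => by rw [mul_add, add_mul]
      map_smul' := fun c x => by simp only [mul_smul_comm, smul_mul_assoc, RingHom.id_apply] }
    (‖v‖ * ‖star v‖) (fun x => by
      change ‖v * x * star v‖ ≤ _
      calc ‖v * x * star v‖ ≤ ‖v‖ * ‖x‖ * ‖star v‖ :=
            (norm_mul_le _ _).trans (mul_le_mul_of_nonneg_right (norm_mul_le _ _) (norm_nonneg _))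
        _ = _ := by ring)

theorem adL_apply (v x : H →L[ℂ] H) : adL v x = v * x * star v := rfl

theorem adL_mul (v w : H →L[ℂ] H) : adL (v * w) = adL v * adL w := by
  ext1 x
  change (v * w) * x * star (v * w) = v * (w * x * star w) * star v
  rw [star_mul]
  simp only [mul_assoc]

theorem norm_adL_sub_one (hv : v ∈ unitary (H →L[ℂ] H)) : ‖adL v - 1‖ ≤ 2 * ‖v - 1‖ :=
  ContinuousLinearMap.opNorm_le_bound _ (by positivity) fun x => norm_conj_sub_le hv x

/-- **Square roots.** If the unitary `s` is close to `1` and `s ^ 2` maps `M` into itself then so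
does `s`. -/
theorem conj_mem_of_sq (M : VonNeumannAlgebra H) (hs : s ∈ unitary (H →L[ℂ] H))
    (hs6 : ‖s - 1‖ ≤ 1 / 6) (h : ∀ x ∈ M, (s * s) * x * star (s * s) ∈ M) :
    ∀ x ∈ M, s * x * star s ∈ M := by
  let S : Set ((H →L[ℂ] H) →L[ℂ] (H →L[ℂ] H)) := {Z | ∀ x ∈ M, Z x ∈ M}
  have hS : IsClosed S := by
    have : S = ⋂ x ∈ (M : Set (H →L[ℂ] H)), {Z | Z x ∈ (M : Set (H →L[ℂ] H))} := by
      ext Z
      simp [S]
    rw [this]
    refine isClosed_biInter fun x _ => ?_
    exact (isClosed_vn M).preimage (ContinuousLinearMap.apply ℂ (H →L[ℂ] H) x).continuous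
  have hsub : ∀ Z ∈ S, ∀ W ∈ S, Z - W ∈ S := fun Z hZ W hW x hx => by
    change Z x - W x ∈ M
    exact sub_mem (hZ x hx) (hW x hx)
  have hsmul : ∀ (c : ℝ), ∀ Z ∈ S, c • Z ∈ S := fun c Z hZ x hx => by
    have : (c • Z) x = (c : ℂ) • (Z x) := by
      rw [ContinuousLinearMap.smul_apply]
      exact (Complex.coe_smul c (Z x)).symm
    rw [this]
    exact smul_mem_vn M _ (hZ x hx)
  have hmul : ∀ Z ∈ S, ∀ W ∈ S, Z * W ∈ S := fun Z hZ W hW x hx => by
    change Z (W x) ∈ M
    exact hZ _ (hW x hx)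
  have h1S : (1 : (H →L[ℂ] H) →L[ℂ] (H →L[ℂ] H)) ∈ S := fun x hx => hx
  have hgS : adL (s * s) ∈ S := fun x hx => h x hx
  have hX : adL (s * s) - 1 ∈ S := hsub _ hgS _ h1S
  have hYS : adL s - 1 ∈ S := by
    refine sqrt_mem hS (fun x _ => zero_mem M) (X := adL (s * s) - 1)
      (fun Z hZ => hsmul _ _ (hsub _ hX _ (hmul _ hZ _ hZ))) ?_ ?_
    · rw [adL_mul]
      exact half_eq _
    · exact (norm_adL_sub_one hs).trans (by linarith)
  intro x hx
  have h3 : (adL s - 1) x + x ∈ M := add_mem (hYS x hx) hx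
  have h4 : (adL s - 1) x + x = s * x * star s := by
    rw [ContinuousLinearMap.sub_apply, adL_apply]
    change s * x * star s - x + x = _
    rw [sub_add_cancel]
  rwa [h4] at h3

/-- `v` normalizes `M` -/
def Normz (M : VonNeumannAlgebra H) (v : H →L[ℂ] H) : Prop :=
  (∀ x ∈ M, v * x * star v ∈ M) ∧ (∀ x ∈ M, star v * x * v ∈ M)

theorem Normz.sqrt {M : VonNeumannAlgebra H} (hs : s ∈ unitary (H →L[ℂ] H))
    (hs6 : ‖s - 1‖ ≤ 1 / 6) (h : Normz M (s * s)) : Normz M s := by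
  refine ⟨conj_mem_of_sq M hs hs6 h.1, ?_⟩
  have h1 := conj_mem_of_sq M (Unitary.star_mem hs) (s := star s)
    (by rw [← star_one, ← star_sub, norm_star]; exact hs6) (fun x hx => by
      have := h.2 x hx
      rw [star_mul] at this
      simpa only [star_mul, star_star] using this)
  intro x hx
  simpa only [star_star] using h1 x hx

/-- **Roots of order `2 ^ m`.** A normalizing unitary `g` close to `1` has a normalizing root of
order `2 ^ m` all of whose powers up to `2 ^ m` are at least as close to `1`. -/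
theorem exists_root {M : VonNeumannAlgebra H} {g : H →L[ℂ] H} (hg : g ∈ unitary (H →L[ℂ] H))
    (hg6 : ‖g - 1‖ ≤ 1 / 6) (h : Normz M g) (m : ℕ) :
    ∃ s ∈ unitary (H →L[ℂ] H), Normz M s ∧ s ^ 2 ^ m = g ∧
      ∀ i ≤ 2 ^ m, ‖s ^ i - 1‖ ≤ ‖g - 1‖ := by
  set G : unitary (H →L[ℂ] H) := ⟨g, hg⟩ with hG
  have hlt : ‖(G - 1 : H →L[ℂ] H)‖ < 2 := by
    change ‖g - 1‖ < 2
    linarith
  obtain ⟨E, hE0, hE1', hEadd, hEn'⟩ := exists_group G hlt
  have hE1 : (E 1 : H →L[ℂ] H) = g := by rw [hE1']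
  have hEn : ∀ t : ℝ, t ∈ Set.Icc (0 : ℝ) 1 → ‖(E t : H →L[ℂ] H) - 1‖ ≤ ‖g - 1‖ := fun t ht =>
    hEn' t ht
  have hEpow : ∀ (t : ℝ) (i : ℕ), E t ^ i = E (i * t) := by
    intro t i
    induction i with
    | zero => simp [hE0]
    | succ i ih =>
      rw [pow_succ, ih, ← hEadd]
      congr 1
      push_cast
      ring
  have hN : ∀ m : ℕ, Normz M (E ((1 / 2) ^ m) : H →L[ℂ] H) := by
    intro m
    induction m with
    | zero =>
      rw [pow_zero, hE1]
      exact h
    | succ m ih =>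
      refine Normz.sqrt (E _).2 ((hEn _ ⟨by positivity, ?_⟩).trans hg6) ?_
      · exact pow_le_one₀ (by norm_num) (by norm_num)
      · have : ((E ((1 / 2) ^ (m + 1)) : H →L[ℂ] H)) * (E ((1 / 2) ^ (m + 1)) : H →L[ℂ] H)
            = (E ((1 / 2) ^ m) : H →L[ℂ] H) := by
          have h2 : E ((1 / 2) ^ (m + 1)) * E ((1 / 2) ^ (m + 1)) = E ((1 / 2) ^ m) := by
            rw [← hEadd]
            congr 1
            ring
          rw [← h2]
          rfl
        rw [this]
        exact ih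
  refine ⟨(E ((1 / 2) ^ m) : H →L[ℂ] H), (E _).2, hN m, ?_, ?_⟩
  · have h2 : E ((1 / 2) ^ m) ^ 2 ^ m = E 1 := by
      rw [hEpow]
      congr 1
      push_cast
      rw [← mul_pow]
      norm_num
    have h3 := congrArg (fun z : unitary (H →L[ℂ] H) => (z : H →L[ℂ] H)) h2
    simp only [SubmonoidClass.coe_pow] at h3
    rw [h3, hE1]
  · intro i hi
    have h2 : E ((1 / 2) ^ m) ^ i = E (i * (1 / 2) ^ m) := hEpow _ _
    have h3 := congrArg (fun z : unitary (H →L[ℂ] H) => (z : H →L[ℂ] H)) h2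
    simp only [SubmonoidClass.coe_pow] at h3
    rw [h3]
    refine hEn _ ⟨by positivity, ?_⟩
    have h4 : (i : ℝ) ≤ 2 ^ m := by exact_mod_cast hi
    calc (i : ℝ) * (1 / 2) ^ m ≤ 2 ^ m * (1 / 2) ^ m := by gcongr
      _ = 1 := by rw [← mul_pow]; norm_num

end root

/-! ### powers -/

section pow

variable {v g : H →L[ℂ] H}

theorem pow_mem_u (hv : v ∈ unitary (H →L[ℂ] H)) (k : ℕ) : v ^ k ∈ unitary (H →L[ℂ] H) :=
  pow_mem hv k

theorem norm_pow_sub_one_le (hv : v ∈ unitary (H →L[ℂ] H)) (k : ℕ) :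
    ‖v ^ k - 1‖ ≤ k * ‖v - 1‖ := by
  induction k with
  | zero => simp
  | succ k ih =>
    have h1 : v ^ (k + 1) - 1 = v ^ k * (v - 1) + (v ^ k - 1) := by
      rw [pow_succ]
      noncomm_ring
    have h2 := norm_le_one (pow_mem_u hv k)
    rw [h1]
    calc ‖v ^ k * (v - 1) + (v ^ k - 1)‖ ≤ ‖v ^ k * (v - 1)‖ + ‖v ^ k - 1‖ := norm_add_le _ _
      _ ≤ 1 * ‖v - 1‖ + k * ‖v - 1‖ := by
          refine add_le_add ((norm_mul_le _ _).trans ?_) ih
          gcongr
      _ = _ := by push_cast; ring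

theorem telescope (v g : H →L[ℂ] H) (k : ℕ) :
    ∑ i ∈ Finset.range k, v ^ i * (v - g) * g ^ (k - 1 - i) = v ^ k - g ^ k := by
  induction k with
  | zero => simp
  | succ k ih =>
    rw [Finset.sum_range_succ]
    have h1 : ∑ i ∈ Finset.range k, v ^ i * (v - g) * g ^ (k + 1 - 1 - i)
        = (∑ i ∈ Finset.range k, v ^ i * (v - g) * g ^ (k - 1 - i)) * g := by
      rw [Finset.sum_mul]
      refine Finset.sum_congr rfl fun i hi => ?_
      have hi' := Finset.mem_range.1 hi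
      have h2 : k + 1 - 1 - i = (k - 1 - i) + 1 := by omega
      rw [h2, pow_succ, ← mul_assoc]
    rw [h1, ih]
    have h3 : k + 1 - 1 - k = 0 := by omega
    rw [h3, pow_zero, mul_one, pow_succ, pow_succ]
    noncomm_ring

/-- close powers have close roots -/
theorem pow_close (hv : v ∈ unitary (H →L[ℂ] H)) (hg : g ∈ unitary (H →L[ℂ] H)) {c c' : ℝ}
    {k : ℕ} (h1 : ∀ i ≤ k, ‖v ^ i - 1‖ ≤ c) (h2 : ∀ i ≤ k, ‖g ^ i - 1‖ ≤ c') :
    k * (1 - c - c') * ‖v - g‖ ≤ ‖v ^ k - g ^ k‖ := by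
  have hd : ∀ i ∈ Finset.range k,
      ‖v ^ i * (v - g) * g ^ (k - 1 - i) - (v - g)‖ ≤ (c + c') * ‖v - g‖ := by
    intro i hi
    have hi' := Finset.mem_range.1 hi
    have e1 : v ^ i * (v - g) * g ^ (k - 1 - i) - (v - g)
        = (v ^ i - 1) * (v - g) * g ^ (k - 1 - i) + (v - g) * (g ^ (k - 1 - i) - 1) := by
      noncomm_ring
    have e2 := norm_le_one (pow_mem_u hg (k - 1 - i))
    have e3 := h1 i hi'.le
    have e4 := h2 (k - 1 - i) (by omega)
    have hc : 0 ≤ c := (norm_nonneg _).trans e3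
    rw [e1]
    calc ‖(v ^ i - 1) * (v - g) * g ^ (k - 1 - i) + (v - g) * (g ^ (k - 1 - i) - 1)‖
        ≤ ‖(v ^ i - 1) * (v - g) * g ^ (k - 1 - i)‖ + ‖(v - g) * (g ^ (k - 1 - i) - 1)‖ :=
          norm_add_le _ _
      _ ≤ (‖v ^ i - 1‖ * ‖v - g‖) * ‖g ^ (k - 1 - i)‖ + ‖v - g‖ * ‖g ^ (k - 1 - i) - 1‖ := by
          refine add_le_add ((norm_mul_le _ _).trans ?_) (norm_mul_le _ _)
          exact mul_le_mul_of_nonneg_right (norm_mul_le _ _) (norm_nonneg _)
      _ ≤ (c * ‖v - g‖) * 1 + ‖v - g‖ * c' := by gcongr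
      _ = _ := by ring
  have hs : ‖(∑ i ∈ Finset.range k, v ^ i * (v - g) * g ^ (k - 1 - i)) - k • (v - g)‖
      ≤ k * ((c + c') * ‖v - g‖) := by
    have e1 : (∑ i ∈ Finset.range k, v ^ i * (v - g) * g ^ (k - 1 - i)) - k • (v - g)
        = ∑ i ∈ Finset.range k, (v ^ i * (v - g) * g ^ (k - 1 - i) - (v - g)) := by
      rw [Finset.sum_sub_distrib, Finset.sum_const, Finset.card_range]
    rw [e1]
    refine (norm_sum_le_of_le _ hd).trans (le_of_eq ?_)
    rw [Finset.sum_const, Finset.card_range, nsmul_eq_mul]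
  rw [telescope] at hs
  have e5 : ‖k • (v - g)‖ = k * ‖v - g‖ := by
    rw [← Nat.cast_smul_eq_nsmul ℂ, norm_smul, Complex.norm_natCast]
  have e6 : ‖k • (v - g)‖ ≤ ‖v ^ k - g ^ k‖ + k * ((c + c') * ‖v - g‖) := by
    calc ‖k • (v - g)‖ = ‖(v ^ k - g ^ k) - ((v ^ k - g ^ k) - k • (v - g))‖ := by
          rw [sub_sub_cancel]
      _ ≤ ‖v ^ k - g ^ k‖ + ‖(v ^ k - g ^ k) - k • (v - g)‖ := norm_sub_le _ _
      _ ≤ _ := by gcongr
  rw [e5] at e6
  linarith

end pow

/-! ### halving -/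

section halve

variable {v : H →L[ℂ] H}

theorem near_pow {M : VonNeumannAlgebra H} {D : ℝ} (hv : v ∈ unitary (H →L[ℂ] H))
    (h : Near M (conjVN hv M) D) (k : ℕ) : Near M (conjVN (pow_mem_u hv k) M) (k * D) := by
  induction k with
  | zero =>
    have : conjVN (pow_mem_u hv 0) M = M := VonNeumannAlgebra.ext fun x => by
      rw [mem_conjVN]
      simp only [pow_zero, star_one, one_mul, mul_one]
    rw [this]
    exact ⟨fun x hx => ⟨x, hx, by simp⟩, fun x hx => ⟨x, hx, by simp⟩⟩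
  | succ k ih =>
    have : conjVN (pow_mem_u hv (k + 1)) M = conjVN hv (conjVN (pow_mem_u hv k) M) :=
      VonNeumannAlgebra.ext fun x => by
        rw [mem_conjVN, mem_conjVN, mem_conjVN, pow_succ', star_mul]
        simp only [mul_assoc]
    rw [this]
    have h2 := h.trans (near_conj hv ih)
    have h3 : ((k + 1 : ℕ) : ℝ) * D = D + k * D := by push_cast; ring
    rw [h3]
    exact h2

theorem conj_eq_of_image {w : H →L[ℂ] H} (hw : w ∈ unitary (H →L[ℂ] H))
    {M N : VonNeumannAlgebra H}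
    (h : (fun x => w * x * star w) '' (M : Set (H →L[ℂ] H)) = (N : Set (H →L[ℂ] H))) :
    conjVN hw M = N := by
  rw [image_conj hw] at h
  exact SetLike.coe_injective h

theorem halve {δ₀ : ℝ}
    (hNL : ∀ M N : VonNeumannAlgebra H, kkDist M N < δ₀ → ConjWithin M N (1 / 100))
    {M : VonNeumannAlgebra H} (hv : v ∈ unitary (H →L[ℂ] H)) {D : ℝ} (hD : 0 ≤ D)
    (hn : Near M (conjVN hv M) D) (hv1 : ‖v - 1‖ ≤ 1 / 100) (hr : D < 10 * δ₀ * ‖v - 1‖) :
    ∃ (w : H →L[ℂ] H) (hw : w ∈ unitary (H →L[ℂ] H)),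
      conjVN hw M = conjVN hv M ∧ ‖w - 1‖ ≤ ‖v - 1‖ / 2 := by
  set r : ℝ := ‖v - 1‖ with hrdef
  have hr0 : 0 ≤ r := norm_nonneg _
  have hrpos : 0 < r := by
    rcases hr0.lt_or_eq with h | h
    · exact h
    · rw [← h, mul_zero] at hr
      linarith
  have hδ : 0 < δ₀ := by
    by_contra hneg
    have : 10 * δ₀ * r ≤ 0 := by
      have := mul_nonneg (by linarith : (0 : ℝ) ≤ -δ₀) hr0
      linarith
    linarith
  obtain ⟨m, hm1, hm2⟩ := exists_nat_pow_near (x := 1 / (10 * r)) (y := (2 : ℝ))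
    (by rw [le_div_iff₀ (by positivity)]; linarith) (by norm_num)
  have hk1 : (2 : ℝ) ^ m * r ≤ 1 / 10 := by
    rw [le_div_iff₀ (by positivity)] at hm1
    linarith
  have hk2 : 1 / 20 < (2 : ℝ) ^ m * r := by
    rw [div_lt_iff₀ (by positivity), pow_succ] at hm2
    linarith
  set k : ℕ := 2 ^ m with hk
  have hkR : ((k : ℕ) : ℝ) = 2 ^ m := by rw [hk]; push_cast; rfl
  rw [← hkR] at hk1 hk2
  have hkpos : (0 : ℝ) < k := by rw [hkR]; positivity
  -- the power
  have hvk := pow_mem_u hv k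
  have hnk := near_pow hv hn k
  have hlt : kkDist M (conjVN hvk M) < δ₀ := by
    refine (kkDist_le_of_near hnk).trans_lt ?_
    calc (k : ℝ) * D < k * (10 * δ₀ * r) := mul_lt_mul_of_pos_left hr hkpos
      _ = 10 * δ₀ * (k * r) := by ring
      _ ≤ 10 * δ₀ * (1 / 10) := by gcongr
      _ = δ₀ := by ring
  obtain ⟨w, hw, hw1, himg⟩ := hNL M (conjVN hvk M) hlt
  have hwc : conjVN hw M = conjVN hvk M := conj_eq_of_image hw himg
  have hsw := Unitary.star_mem hw
  have hg : star w * v ^ k ∈ unitary (H →L[ℂ] H) := mul_mem hsw hvk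
  have hgv : ‖v ^ k - star w * v ^ k‖ ≤ 1 / 100 := by
    have e1 : v ^ k - star w * v ^ k = - (star (w - 1) * v ^ k) := by
      rw [star_sub, star_one]
      noncomm_ring
    rw [e1, norm_neg]
    calc ‖star (w - 1) * v ^ k‖ ≤ ‖star (w - 1)‖ * ‖v ^ k‖ := norm_mul_le _ _
      _ ≤ (1 / 100) * 1 := by
          rw [norm_star (w - 1)]
          exact mul_le_mul hw1.le (norm_le_one hvk) (norm_nonneg _) (by norm_num)
      _ = 1 / 100 := by ring
  have hvk1 : ∀ i ≤ k, ‖v ^ i - 1‖ ≤ 1 / 10 := by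
    intro i hi
    have hi' : (i : ℝ) ≤ k := by exact_mod_cast hi
    calc ‖v ^ i - 1‖ ≤ i * ‖v - 1‖ := norm_pow_sub_one_le hv i
      _ ≤ k * r := mul_le_mul_of_nonneg_right hi' hr0
      _ ≤ 1 / 10 := hk1
  have hg1 : ‖star w * v ^ k - 1‖ ≤ 11 / 100 := by
    have e1 : star w * v ^ k - 1 = (v ^ k - 1) - (v ^ k - star w * v ^ k) := by abel
    rw [e1]
    refine (norm_sub_le _ _).trans ?_
    have := hvk1 k le_rfl
    linarith
  have hgN : Normz M (star w * v ^ k) := by
    constructor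
    · intro x hx
      have h1 : v ^ k * x * star (v ^ k) ∈ conjVN hw M := by
        rw [hwc]
        exact conj_mem_conjVN hvk hx
      rw [mem_conjVN] at h1
      have h2 : star w * v ^ k * x * star (star w * v ^ k)
          = star w * (v ^ k * x * star (v ^ k)) * w := by
        rw [star_mul, star_star]
        simp only [mul_assoc]
      rw [h2]
      exact h1
    · intro x hx
      have h1 : w * x * star w ∈ conjVN hvk M := by
        rw [← hwc]
        exact conj_mem_conjVN hw hx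
      rw [mem_conjVN] at h1
      have h2 : star (star w * v ^ k) * x * (star w * v ^ k)
          = star (v ^ k) * (w * x * star w) * v ^ k := by
        rw [star_mul, star_star]
        simp only [mul_assoc]
      rw [h2]
      exact h1
  obtain ⟨s, hs, hsN, hspow, hsi⟩ := exists_root hg (hg1.trans (by norm_num)) hgN m
  have hclose := pow_close hv hs (c := 1 / 10) (c' := 11 / 100) (k := k) hvk1
    (fun i hi => (hsi i hi).trans hg1)
  rw [hspow] at hclose
  have hss := Unitary.star_mem hs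
  have hvs : ‖v - s‖ ≤ r / 2 := by
    have e1 : (k : ℝ) * (1 - 1 / 10 - 11 / 100) * ‖v - s‖ ≤ 1 / 100 := hclose.trans hgv
    by_contra hcon
    push Not at hcon
    have e2 : (k : ℝ) * (r / 2) < k * ‖v - s‖ := mul_lt_mul_of_pos_left hcon hkpos
    linarith
  refine ⟨v * star s, mul_mem hv hss, ?_, ?_⟩
  · refine VonNeumannAlgebra.ext fun x => ?_
    rw [mem_conjVN, mem_conjVN]
    have h1 : star (v * star s) * x * (v * star s) = s * (star v * x * v) * star s := by
      rw [star_mul, star_star]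
      simp only [mul_assoc]
    rw [h1]
    constructor
    · intro h
      have h2 := hsN.2 _ h
      have h3 : star s * (s * (star v * x * v) * star s) * s = star v * x * v := by
        simp only [mul_assoc]
        rw [star_mul_cancel_vn hs, Unitary.star_mul_self_of_mem hs, mul_one]
      rwa [h3] at h2
    · intro h
      exact hsN.1 _ h
  · have h1 : v * star s - 1 = (v - s) * star s := by
      rw [sub_mul, Unitary.mul_star_self_of_mem hs]
    rw [h1]
    calc ‖(v - s) * star s‖ ≤ ‖v - s‖ * ‖star s‖ := norm_mul_le _ _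
      _ ≤ (r / 2) * 1 := mul_le_mul hvs (norm_le_one hss) (norm_nonneg _) (by positivity)
      _ = r / 2 := by ring

/-- the linear estimate from the non-linear statement on one Hilbert space -/
theorem linear_at {δ₀ : ℝ} (hδ : 0 < δ₀)
    (hNL : ∀ M N : VonNeumannAlgebra H, kkDist M N < δ₀ → ConjWithin M N (1 / 100))
    (M N : VonNeumannAlgebra H) (hd : kkDist M N < δ₀ / 2) :
    ∃ w ∈ unitary (H →L[ℂ] H), ‖w - 1‖ ≤ 1 / (5 * δ₀) * kkDist M N ∧
      (fun x => w * x * star w) '' (M : Set (H →L[ℂ] H)) = (N : Set (H →L[ℂ] H)) := by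
  have hd0 := kkDist_nonneg M N
  rcases hd0.lt_or_eq with hpos | hzero
  · set d : ℝ := kkDist M N with hddef
    have hn : Near M N (2 * d) := near_of_lt (by linarith)
    have key : ∀ n : ℕ, ∃ (w : H →L[ℂ] H) (hw : w ∈ unitary (H →L[ℂ] H)),
        conjVN hw M = N ∧ ‖w - 1‖ ≤ max (1 / 100 * (1 / 2) ^ n) (2 * d / (10 * δ₀)) := by
      intro n
      induction n with
      | zero =>
        obtain ⟨w, hw, hw1, himg⟩ := hNL M N (by linarith)
        exact ⟨w, hw, conj_eq_of_image hw himg, le_max_of_le_left (by simpa using hw1.le)⟩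
      | succ n ih =>
        obtain ⟨w, hw, hc, hw1⟩ := ih
        by_cases hb : ‖w - 1‖ ≤ 2 * d / (10 * δ₀)
        · exact ⟨w, hw, hc, le_max_of_le_right hb⟩
        · push Not at hb
          have h1 : ‖w - 1‖ ≤ 1 / 100 * (1 / 2) ^ n := by
            rcases le_max_iff.1 hw1 with h | h
            · exact h
            · exact absurd h (not_le.2 hb)
          have h2 : ((1 : ℝ) / 2) ^ n ≤ 1 := pow_le_one₀ (by norm_num) (by norm_num)
          rw [div_lt_iff₀ (by positivity)] at hb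
          obtain ⟨w', hw', hc', hw1'⟩ := halve hNL (M := M) hw (D := 2 * d) (by linarith)
            (by rw [hc]; exact hn) (by linarith) (by linarith)
          refine ⟨w', hw', hc'.trans hc, le_max_of_le_left (hw1'.trans ?_)⟩
          rw [pow_succ]
          linarith
    obtain ⟨n, hn2⟩ := exists_pow_lt_of_lt_one (show 0 < 2 * d / (10 * δ₀) by positivity)
      (show (1 / 2 : ℝ) < 1 by norm_num)
    obtain ⟨w, hw, hc, hw1⟩ := key n
    refine ⟨w, hw, hw1.trans (max_le ?_ (le_of_eq ?_)), ?_⟩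
    · have h3 : (0 : ℝ) ≤ (1 / 2) ^ n := by positivity
      have h4 : 1 / (5 * δ₀) * d = 2 * d / (10 * δ₀) := by
        field_simp
        norm_num
      rw [h4]
      linarith
    · field_simp
      norm_num
    · rw [image_conj hw, hc]
  · have hN : ∀ ε : ℝ, 0 < ε → Near M N ε := fun ε hε => near_of_lt (by rw [← hzero]; exact hε)
    have hMN : (M : Set (H →L[ℂ] H)) = N :=
      Set.Subset.antisymm (le_of_near_zero hN) (le_of_near_zero fun ε hε => (hN ε hε).symm)
    refine ⟨1, one_mem _, ?_, ?_⟩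
    · rw [← hzero]
      simp
    · rw [hMN]
      simp

/-- the converse: an algebra conjugate to `M` by a unitary close to `1` is close to `M` -/
theorem kkDist_le_of_conj {M N : VonNeumannAlgebra H} (hv : v ∈ unitary (H →L[ℂ] H))
    (h : (fun x => v * x * star v) '' (M : Set (H →L[ℂ] H)) = (N : Set (H →L[ℂ] H))) :
    kkDist M N ≤ 2 * ‖v - 1‖ := by
  have hc := conj_eq_of_image hv h
  subst hc
  refine kkDist_le_of_near ⟨fun x hx => ?_, fun y hy => ?_⟩
  · refine ⟨v * x * star v, ⟨conj_mem_conjVN hv hx.1, (norm_conj_le hv x).trans hx.2⟩, ?_⟩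
    rw [norm_sub_rev]
    refine (norm_conj_sub_le hv x).trans ?_
    have := hx.2
    have h0 := norm_nonneg (v - 1)
    nlinarith
  · have hsv := Unitary.star_mem hv
    refine ⟨star v * y * v, ⟨hy.1, by simpa using (norm_conj_le hsv y).trans hy.2⟩, ?_⟩
    have h1 := norm_conj_sub_le hsv y
    have h2 : ‖star v - 1‖ = ‖v - 1‖ := by
      rw [← star_one, ← star_sub, norm_star, star_one]
    rw [star_star, h2] at h1
    refine h1.trans ?_
    have := hy.2
    have h0 := norm_nonneg (v - 1)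
    nlinarith

end halve

/-- **Self-improvement.** The strong Kadison-Kastler statement implies the linear one. -/
theorem linear_of_strong
    (hS : ∀ ε : ℝ, 0 < ε → ∃ δ : ℝ, 0 < δ ∧
      ∀ (H : Type u) [NormedAddCommGroup H] [InnerProductSpace ℂ H] [CompleteSpace H]
        (M N : VonNeumannAlgebra H), kkDist M N < δ → ConjWithin M N ε) :
    ∃ C : ℝ, 1 ≤ C ∧
      ∀ (H : Type u) [NormedAddCommGroup H] [InnerProductSpace ℂ H] [CompleteSpace H]
        (M N : VonNeumannAlgebra H), C * kkDist M N ≤ 1 →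
        ∃ w ∈ unitary (H →L[ℂ] H), ‖w - 1‖ ≤ C * kkDist M N ∧
          (fun x => w * x * star w) '' (M : Set (H →L[ℂ] H)) = (N : Set (H →L[ℂ] H)) := by
  obtain ⟨δ₀, hδ, hNL⟩ := hS (1 / 100) (by norm_num)
  have h4 : 0 < 4 / δ₀ := by positivity
  refine ⟨1 + 4 / δ₀, by linarith, fun H _ _ _ M N hC => ?_⟩
  have hd0 := kkDist_nonneg M N
  have hlt : kkDist M N < δ₀ / 2 := by
    have h5 : 4 / δ₀ * kkDist M N ≤ 1 := by nlinarith
    have h6 : 4 / δ₀ * kkDist M N = 4 * kkDist M N / δ₀ := by ring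
    rw [h6, div_le_iff₀ hδ] at h5
    linarith
  obtain ⟨w, hw, hw1, himg⟩ := linear_at hδ (hNL H) M N hlt
  refine ⟨w, hw, hw1.trans ?_, himg⟩
  have h7 : 1 / (5 * δ₀) ≤ 1 + 4 / δ₀ := by
    have : 1 / (5 * δ₀) ≤ 4 / δ₀ := by
      rw [div_le_div_iff₀ (by positivity) hδ]
      linarith
    linarith
  exact mul_le_mul_of_nonneg_right h7 hd0

end Vale.Agent.P096.H308
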